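import Vale.Agent.P181.ST.H984.Cnt
import Vale.Agent.P181.ST.H410.PureH

set_option autoImplicit false

/-!
# P181, ST, [T8a], [T8b], closed
-/

namespace Vale.Agent.P181.ST.H984

theorem cntAT : CntA := cntA H410.pureH

theorem cntBT : CntB := cntB H410.pureH

end Vale.Agent.P181.ST.H984
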