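import Vale.Agent.P181.ST.Defs

set_option autoImplicit false

/-!
# P181, ST, [T8]: multisets of labels, the coding principle
-/

namespace Vale.Agent.P181.ST.H984

open Finset
open Vale.Agent.P181.SZ (PT)

lemma mem_PT {w : ℕ} {k : Multiset ℕ} : k ∈ PT w ↔ k.sum = w ∧ ∀ x ∈ k, 2 ≤ x := by
  classical
  unfold PT
  rw [Finset.mem_filter, Finset.mem_image]
  constructor
  · rintro ⟨⟨p, _, rfl⟩, h⟩
    exact ⟨p.parts_sum, h⟩
  · rintro ⟨h1, h2⟩
    refine ⟨⟨⟨k, fun {i} hi => ?_, h1⟩, Finset.mem_univ _, rfl⟩, h2⟩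
    have := h2 i hi
    omega

/-- The sum of the first coordinates. -/
def sf (P : Multiset (ℕ × ℕ)) : ℕ := (P.map Prod.fst).sum

/-- The sum of the second coordinates. -/
def ss (P : Multiset (ℕ × ℕ)) : ℕ := (P.map Prod.snd).sum

@[simp] lemma sf_zero : sf 0 = 0 := rfl
@[simp] lemma ss_zero : ss 0 = 0 := rfl

@[simp] lemma sf_cons (x : ℕ × ℕ) (P : Multiset (ℕ × ℕ)) : sf (x ::ₘ P) = x.1 + sf P := by
  simp [sf]

@[simp] lemma ss_cons (x : ℕ × ℕ) (P : Multiset (ℕ × ℕ)) : ss (x ::ₘ P) = x.2 + ss P := by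
  simp [ss]

@[simp] lemma sf_add (P Q : Multiset (ℕ × ℕ)) : sf (P + Q) = sf P + sf Q := by
  simp [sf]

@[simp] lemma ss_add (P Q : Multiset (ℕ × ℕ)) : ss (P + Q) = ss P + ss Q := by
  simp [ss]

lemma card_le {P : Multiset (ℕ × ℕ)} (h : ∀ x ∈ P, 2 ≤ x.1 + x.2) :
    2 * Multiset.card P ≤ sf P + ss P := by
  induction P using Multiset.induction_on with
  | empty => simp
  | cons x P ih =>
    have h1 := ih fun y hy => h y (Multiset.mem_cons_of_mem hy)
    have h2 := h x (Multiset.mem_cons_self x P)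
    rw [sf_cons, ss_cons, Multiset.card_cons]
    omega

lemma card_le_ss {P : Multiset (ℕ × ℕ)} (h : ∀ x ∈ P, 1 ≤ x.2) : Multiset.card P ≤ ss P := by
  induction P using Multiset.induction_on with
  | empty => simp
  | cons x P ih =>
    have h1 := ih fun y hy => h y (Multiset.mem_cons_of_mem hy)
    have h2 := h x (Multiset.mem_cons_self x P)
    rw [ss_cons, Multiset.card_cons]
    omega

lemma sf_erase {P : Multiset (ℕ × ℕ)} {x : ℕ × ℕ} (hx : x ∈ P) :
    sf P = x.1 + sf (P.erase x) := by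
  rw [← sf_cons, Multiset.cons_erase hx]

lemma ss_erase {P : Multiset (ℕ × ℕ)} {x : ℕ × ℕ} (hx : x ∈ P) :
    ss P = x.2 + ss (P.erase x) := by
  rw [← ss_cons, Multiset.cons_erase hx]

lemma fst_le {P : Multiset (ℕ × ℕ)} {x : ℕ × ℕ} (hx : x ∈ P) : x.1 ≤ sf P := by
  rw [sf_erase hx]; omega

lemma snd_le {P : Multiset (ℕ × ℕ)} {x : ℕ × ℕ} (hx : x ∈ P) : x.2 ≤ ss P := by
  rw [ss_erase hx]; omega

lemma mem_LT {I J : ℕ} {P : Multiset (ℕ × ℕ)} : P ∈ LT I J ↔
    (∀ x ∈ P, 2 ≤ x.1 + x.2) ∧ sf P = I ∧ ss P = J := by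
  classical
  unfold LT
  rw [Finset.mem_filter, Multiset.mem_toFinset, Multiset.mem_powerset]
  constructor
  · rintro ⟨_, h1, h2, h3⟩
    exact ⟨h1, h2, h3⟩
  · rintro ⟨h1, h2, h3⟩
    refine ⟨?_, h1, h2, h3⟩
    rw [Multiset.le_iff_count]
    intro x
    rw [Multiset.count_nsmul]
    by_cases hx : x ∈ P
    · have h4 : x ∈ (Finset.range (I + 1) ×ˢ Finset.range (J + 1)).val := by
        rw [Finset.mem_val, Finset.mem_product, Finset.mem_range, Finset.mem_range]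
        have h5 := fst_le hx
        have h6 := snd_le hx
        omega
      rw [Multiset.count_eq_one_of_mem (Finset.nodup _) h4, mul_one]
      have h5 := card_le h1
      have h6 := Multiset.count_le_card x P
      omega
    · rw [Multiset.count_eq_zero_of_notMem hx]
      exact Nat.zero_le _

/-- The coding principle. -/
lemma code_le {α β γ : Type*} [DecidableEq β] [DecidableEq γ] (S : Finset α) (T : Finset β)
    (C : Finset γ) (φ : α → β) (ψ : α → γ) (F : β → ℕ) (hT : ∀ s ∈ S, φ s ∈ T)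
    (hC : ∀ s ∈ S, ψ s ∈ C)
    (hinj : ∀ s ∈ S, ∀ s' ∈ S, φ s = φ s' → ψ s = ψ s' → s = s') :
    ∑ s ∈ S, F (φ s) ≤ C.card * ∑ t ∈ T, F t := by
  classical
  have h1 : ∑ s ∈ S, F (φ s) = ∑ p ∈ S.image (fun s => (φ s, ψ s)), F p.1 := by
    rw [Finset.sum_image]
    intro s hs s' hs' h
    exact hinj s hs s' hs' (Prod.mk.inj h).1 (Prod.mk.inj h).2
  have h2 : S.image (fun s => (φ s, ψ s)) ⊆ T ×ˢ C := by
    intro p hp
    rw [Finset.mem_image] at hp
    obtain ⟨s, hs, rfl⟩ := hp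
    exact Finset.mem_product.2 ⟨hT s hs, hC s hs⟩
  rw [h1]
  refine (Finset.sum_le_sum_of_subset h2).trans ?_
  rw [Finset.sum_product]
  simp only [Finset.sum_const, smul_eq_mul]
  rw [Finset.mul_sum]

lemma exists_fresh (P : Multiset (ℕ × ℕ)) (j lo : ℕ) :
    ∃ i, lo ≤ i ∧ i ≤ lo + Multiset.card P ∧ (i, j) ∉ P := by
  classical
  by_contra hcon
  push Not at hcon
  have h1 : (Finset.range (Multiset.card P + 1)).image (fun t => (lo + t, j)) ⊆ P.toFinset := by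
    intro x hx
    rw [Finset.mem_image] at hx
    obtain ⟨t, ht, rfl⟩ := hx
    rw [Finset.mem_range] at ht
    rw [Multiset.mem_toFinset]
    exact hcon (lo + t) (by omega) (by omega)
  have h2 := Finset.card_le_card h1
  rw [Finset.card_image_of_injective _ (by
    intro s t hst
    have := (Prod.mk.inj hst).1
    omega), Finset.card_range] at h2
  have h3 := Multiset.toFinset_card_le P
  omega

/-- A fresh first coordinate. -/
noncomputable def fr (P : Multiset (ℕ × ℕ)) (j lo : ℕ) : ℕ := (exists_fresh P j lo).choose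

lemma le_fr (P : Multiset (ℕ × ℕ)) (j lo : ℕ) : lo ≤ fr P j lo :=
  (exists_fresh P j lo).choose_spec.1

lemma fr_le (P : Multiset (ℕ × ℕ)) (j lo : ℕ) : fr P j lo ≤ lo + Multiset.card P :=
  (exists_fresh P j lo).choose_spec.2.1

lemma fr_notMem (P : Multiset (ℕ × ℕ)) (j lo : ℕ) : (fr P j lo, j) ∉ P :=
  (exists_fresh P j lo).choose_spec.2.2

/-- The letters with cells behind row two. -/
def dec (P : Multiset (ℕ × ℕ)) : Multiset (ℕ × ℕ) := P.filter fun x => 1 ≤ x.2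

/-- The pure letters. -/
def pp (P : Multiset (ℕ × ℕ)) : Multiset (ℕ × ℕ) := P.filter fun x => ¬ 1 ≤ x.2

lemma dec_add_pp (P : Multiset (ℕ × ℕ)) : dec P + pp P = P := Multiset.filter_add_not _ _

lemma pp_add_dec (P : Multiset (ℕ × ℕ)) : pp P + dec P = P := by
  rw [add_comm, dec_add_pp]

lemma mem_dec {P : Multiset (ℕ × ℕ)} {x : ℕ × ℕ} : x ∈ dec P ↔ x ∈ P ∧ 1 ≤ x.2 :=
  Multiset.mem_filter

lemma mem_pp {P : Multiset (ℕ × ℕ)} {x : ℕ × ℕ} : x ∈ pp P ↔ x ∈ P ∧ x.2 = 0 := by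
  rw [pp, Multiset.mem_filter]
  constructor
  · rintro ⟨h1, h2⟩
    exact ⟨h1, by omega⟩
  · rintro ⟨h1, h2⟩
    exact ⟨h1, by omega⟩

lemma ss_pp (P : Multiset (ℕ × ℕ)) : ss (pp P) = 0 := by
  rw [ss, Multiset.sum_eq_zero_iff]
  intro y hy
  rw [Multiset.mem_map] at hy
  obtain ⟨x, hx, rfl⟩ := hy
  exact (mem_pp.1 hx).2

lemma ss_dec (P : Multiset (ℕ × ℕ)) : ss (dec P) = ss P := by
  have h := congrArg ss (dec_add_pp P)
  rw [ss_add, ss_pp, add_zero] at h
  exact h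

lemma sf_dec_add (P : Multiset (ℕ × ℕ)) : sf (dec P) + sf (pp P) = sf P := by
  rw [← sf_add, dec_add_pp]

lemma card_dec_add (P : Multiset (ℕ × ℕ)) :
    Multiset.card (dec P) + Multiset.card (pp P) = Multiset.card P := by
  rw [← Multiset.card_add, dec_add_pp]

lemma card_dec_le (P : Multiset (ℕ × ℕ)) : Multiset.card (dec P) ≤ ss P := by
  rw [← ss_dec]
  exact card_le_ss fun x hx => (mem_dec.1 hx).2

lemma dec_add (P Q : Multiset (ℕ × ℕ)) : dec (P + Q) = dec P + dec Q := Multiset.filter_add _ _ _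

lemma pp_add (P Q : Multiset (ℕ × ℕ)) : pp (P + Q) = pp P + pp Q := Multiset.filter_add _ _ _

lemma dec_of_pure {P : Multiset (ℕ × ℕ)} (h : ∀ x ∈ P, x.2 = 0) : dec P = 0 := by
  rw [dec, Multiset.filter_eq_nil]
  intro x hx
  have := h x hx
  omega

lemma pp_of_pure {P : Multiset (ℕ × ℕ)} (h : ∀ x ∈ P, x.2 = 0) : pp P = P := by
  rw [pp, Multiset.filter_eq_self]
  intro x hx
  have := h x hx
  omega

lemma dec_dec (P : Multiset (ℕ × ℕ)) : dec (dec P) = dec P := by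
  rw [dec, Multiset.filter_eq_self]
  intro x hx
  exact (mem_dec.1 hx).2

lemma pp_dec (P : Multiset (ℕ × ℕ)) : pp (dec P) = 0 := by
  rw [pp, Multiset.filter_eq_nil]
  intro x hx h
  exact h (mem_dec.1 hx).2

lemma notMem_of_dec {P : Multiset (ℕ × ℕ)} {i j : ℕ} (hj : 1 ≤ j) (h : (i, j) ∉ dec P) :
    (i, j) ∉ P := fun h' => h (mem_dec.2 ⟨h', hj⟩)

end Vale.Agent.P181.ST.H984
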