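import Vale.Agent.P181.ST.H984.Two

set_option autoImplicit false

/-!
# P181, ST, [T8a], [T8b]
-/

namespace Vale.Agent.P181.ST.H984

open Finset
open Vale.Agent.P181.SZ (PT)

variable {g : Multiset (ℕ × ℕ) → ℕ}

lemma mem_erase_up {P : Multiset (ℕ × ℕ)} {x y : ℕ × ℕ} (hx : x ∈ up (dec P))
    (hy : y ∈ (up (dec P)).erase x) :
    dn1 x ∈ P ∧ dn1 y ∈ P.erase (dn1 x) ∧ x.1 = (dn1 x).1 + 1 ∧ y.1 = (dn1 y).1 + 1 := by
  have hxP : x ∈ up P := by
    rw [← up_dec_add]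
    exact Multiset.mem_add.2 (Or.inl hx)
  have hyP : y ∈ up (P.erase (dn1 x)) := by
    rw [up_erase hxP, ← up_dec_add P, Multiset.erase_add_left_pos _ hx]
    exact Multiset.mem_add.2 (Or.inl hy)
  exact ⟨(mem_of_up hxP).1, (mem_of_up hyP).1, congrArg Prod.fst (mem_of_up hxP).2,
    congrArg Prod.fst (mem_of_up hyP).2⟩

open scoped Classical in
lemma sumA (w t D : ℕ) (hw : t + D ≤ w) :
    ∑ P ∈ LT t D, ∑ x ∈ (up (dec P)).toFinset.filter (fun x => 2 ≤ x.2), g2 g (N1 P x) ≤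
      ((w + 2) * (w + 2) * (w + 10)) * ∑ t' ∈ range (t + 2 * D + 6), W (g2 g) (D - 2) t' := by
  rw [Finset.sum_sigma']
  have hfacts : ∀ s ∈ (LT t D).sigma (fun P => (up (dec P)).toFinset.filter (fun x => 2 ≤ x.2)),
      (∀ x ∈ s.1, 2 ≤ x.1 + x.2) ∧ sf s.1 = t ∧ ss s.1 = D ∧ dn1 s.2 ∈ s.1 ∧
        s.2.1 = (dn1 s.2).1 + 1 ∧ 2 ≤ s.2.2 ∧ 3 ≤ f1 s.1 s.2 ∧ f1 s.1 s.2 ≤ 3 + D := by
    rintro ⟨P, x⟩ hs
    rw [Finset.mem_sigma, Finset.mem_filter, Multiset.mem_toFinset, mem_LT] at hs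
    obtain ⟨⟨h1, h2, h3⟩, h4, h5⟩ := hs
    have hxP : x ∈ up P := by
      rw [← up_dec_add]
      exact Multiset.mem_add.2 (Or.inl h4)
    refine ⟨h1, h2, h3, (mem_of_up hxP).1, congrArg Prod.fst (mem_of_up hxP).2, h5,
      le_fr _ _ _, (fr_le _ _ _).trans ?_⟩
    rw [card_up]
    have := card_dec_le P
    simp only at h3
    change 3 + Multiset.card (dec P) ≤ 3 + D
    omega
  have h2 := code_le ((LT t D).sigma
    (fun P => (up (dec P)).toFinset.filter (fun x => 2 ≤ x.2)))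
    ((range (t + 2 * D + 6)).sigma (fun t' => LT t' (D - 2)))
    ((range (w + 2) ×ˢ range (w + 2)) ×ˢ range (w + 10))
    (fun s => (⟨sf (N1 s.1 s.2), N1 s.1 s.2⟩ : Σ _ : ℕ, Multiset (ℕ × ℕ)))
    (fun s => (s.2, f1 s.1 s.2)) (fun p => g2 g p.2) ?_ ?_ ?_
  · rw [sum_sigma_W] at h2
    refine h2.trans (le_of_eq ?_)
    rw [Finset.card_product, Finset.card_product, Finset.card_range, Finset.card_range]
  · intro s hs
    obtain ⟨h1, h2, h3, h4, h5, h6, h7, h8⟩ := hfacts s hs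
    have e1 := sf_erase h4
    have e2 := ss_erase h4
    have e3 : (dn1 s.2).2 = s.2.2 := rfl
    simp only [Finset.mem_sigma, Finset.mem_range]
    refine ⟨?_, mem_LT.2 ⟨?_, rfl, ?_⟩⟩
    · rw [N1, sf_cons]
      simp only
      omega
    · intro x hx
      rw [N1, Multiset.mem_cons] at hx
      rcases hx with rfl | hx
      · simp only; omega
      · exact h1 x (Multiset.mem_of_mem_erase hx)
    · rw [N1, ss_cons]
      simp only
      omega
  · intro s hs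
    obtain ⟨h1, h2, h3, h4, h5, h6, h7, h8⟩ := hfacts s hs
    have e1 := sf_erase h4
    have e2 := ss_erase h4
    have e3 : (dn1 s.2).2 = s.2.2 := rfl
    simp only [Finset.mem_product, Finset.mem_range]
    refine ⟨⟨by omega, by omega⟩, by omega⟩
  · rintro ⟨P, x⟩ hs ⟨P', x'⟩ hs' hφ hψ
    obtain ⟨_, _, _, h4, _⟩ := hfacts _ hs
    obtain ⟨_, _, _, h4', _⟩ := hfacts _ hs'
    simp only at h4 h4' hφ hψ
    have h5 : x = x' := (Prod.mk.inj hψ).1
    have h6 : f1 P x = f1 P' x' := (Prod.mk.inj hψ).2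
    subst h5
    have h7 : N1 P x = N1 P' x := by
      have := congrArg (fun p : (Σ _ : ℕ, Multiset (ℕ × ℕ)) => p.2) hφ
      exact this
    rw [N1, N1, h6] at h7
    have h8 := (Multiset.cons_inj_right _).1 h7
    have h9 : P = P' := by
      rw [← Multiset.cons_erase h4, ← Multiset.cons_erase h4', h8]
    rw [h9]

open scoped Classical in
lemma sumB (w t D : ℕ) (hw : t + D ≤ w) :
    ∑ P ∈ LT t D, ∑ p ∈ ((up (dec P)).toFinset ×ˢ (up (dec P)).toFinset).filter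
      (fun p => p.2 ∈ (up (dec P)).erase p.1 ∧ 1 ≤ p.1.2 ∧ 1 ≤ p.2.2), g2 g (N2 P p.1 p.2) ≤
      (((w + 2) * (w + 2)) * ((w + 2) * (w + 2)) * ((w + 10) * (w + 10))) *
        ∑ t' ∈ range (t + 2 * D + 6), W (g2 g) (D - 2) t' := by
  rw [Finset.sum_sigma']
  have hfacts : ∀ s ∈ (LT t D).sigma (fun P => ((up (dec P)).toFinset ×ˢ
      (up (dec P)).toFinset).filter
      (fun p => p.2 ∈ (up (dec P)).erase p.1 ∧ 1 ≤ p.1.2 ∧ 1 ≤ p.2.2)),
      (∀ x ∈ s.1, 2 ≤ x.1 + x.2) ∧ sf s.1 = t ∧ ss s.1 = D ∧ dn1 s.2.1 ∈ s.1 ∧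
        dn1 s.2.2 ∈ s.1.erase (dn1 s.2.1) ∧
        s.2.1.1 = (dn1 s.2.1).1 + 1 ∧ s.2.2.1 = (dn1 s.2.2).1 + 1 ∧ 1 ≤ s.2.1.2 ∧ 1 ≤ s.2.2.2 ∧
        3 ≤ f2 s.1 s.2.1 s.2.2 ∧ f2 s.1 s.2.1 s.2.2 ≤ 3 + D ∧
        3 ≤ f3 s.1 s.2.1 s.2.2 ∧ f3 s.1 s.2.1 s.2.2 ≤ 4 + D := by
    rintro ⟨P, x, y⟩ hs
    rw [Finset.mem_sigma, Finset.mem_filter, Finset.mem_product, Multiset.mem_toFinset,
      Multiset.mem_toFinset, mem_LT] at hs
    obtain ⟨⟨h1, h2, h3⟩, ⟨h4, h5⟩, h6, h7, h8⟩ := hs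
    simp only at h1 h2 h3 h4 h5 h6 h7 h8
    obtain ⟨m1, m2, m3, m4⟩ := mem_erase_up h4 h6
    have hc := card_dec_le P
    refine ⟨h1, h2, h3, m1, m2, m3, m4, h7, h8, le_fr _ _ _, (fr_le _ _ _).trans ?_, le_fr _ _ _,
      (fr_le _ _ _).trans ?_⟩
    · rw [card_up]
      change 3 + Multiset.card (dec P) ≤ 3 + D
      omega
    · rw [Multiset.card_cons, card_up]
      change 3 + (Multiset.card (dec P) + 1) ≤ 4 + D
      omega
  have h2 := code_le ((LT t D).sigma (fun P => ((up (dec P)).toFinset ×ˢ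
      (up (dec P)).toFinset).filter
      (fun p => p.2 ∈ (up (dec P)).erase p.1 ∧ 1 ≤ p.1.2 ∧ 1 ≤ p.2.2)))
    ((range (t + 2 * D + 6)).sigma (fun t' => LT t' (D - 2)))
    (((range (w + 2) ×ˢ range (w + 2)) ×ˢ (range (w + 2) ×ˢ range (w + 2))) ×ˢ
      (range (w + 10) ×ˢ range (w + 10)))
    (fun s => (⟨sf (N2 s.1 s.2.1 s.2.2), N2 s.1 s.2.1 s.2.2⟩ : Σ _ : ℕ, Multiset (ℕ × ℕ)))
    (fun s => (s.2, (f2 s.1 s.2.1 s.2.2, f3 s.1 s.2.1 s.2.2))) (fun p => g2 g p.2) ?_ ?_ ?_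
  · rw [sum_sigma_W] at h2
    refine h2.trans (le_of_eq ?_)
    simp only [Finset.card_product, Finset.card_range]
  · intro s hs
    obtain ⟨h1, h2, h3, h4, h4', h5, h5', h6, h6', h7, h8, h9, h10⟩ := hfacts s hs
    have e1 := sf_erase h4
    have e2 := ss_erase h4
    have e1' := sf_erase h4'
    have e2' := ss_erase h4'
    have e3 : (dn1 s.2.1).2 = s.2.1.2 := rfl
    have e3' : (dn1 s.2.2).2 = s.2.2.2 := rfl
    simp only [Finset.mem_sigma, Finset.mem_range]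
    refine ⟨?_, mem_LT.2 ⟨?_, rfl, ?_⟩⟩
    · rw [N2, sf_cons, sf_cons]
      simp only
      omega
    · intro x hx
      rw [N2, Multiset.mem_cons, Multiset.mem_cons] at hx
      rcases hx with rfl | rfl | hx
      · simp only; omega
      · simp only; omega
      · exact h1 x (Multiset.mem_of_mem_erase (Multiset.mem_of_mem_erase hx))
    · rw [N2, ss_cons, ss_cons]
      simp only
      omega
  · intro s hs
    obtain ⟨h1, h2, h3, h4, h4', h5, h5', h6, h6', h7, h8, h9, h10⟩ := hfacts s hs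
    have e1 := sf_erase h4
    have e2 := ss_erase h4
    have e1' := sf_erase h4'
    have e2' := ss_erase h4'
    have e3 : (dn1 s.2.1).2 = s.2.1.2 := rfl
    have e3' : (dn1 s.2.2).2 = s.2.2.2 := rfl
    simp only [Finset.mem_product, Finset.mem_range]
    refine ⟨⟨⟨by omega, by omega⟩, by omega, by omega⟩, by omega, by omega⟩
  · rintro ⟨P, x, y⟩ hs ⟨P', x', y'⟩ hs' hφ hψ
    obtain ⟨_, _, _, h4, k4, _⟩ := hfacts _ hs
    obtain ⟨_, _, _, h4', k4', _⟩ := hfacts _ hs'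
    simp only at h4 h4' k4 k4' hφ hψ
    have h5 := Prod.mk.inj (Prod.mk.inj hψ).1
    have h6 := Prod.mk.inj (Prod.mk.inj hψ).2
    obtain ⟨rfl, rfl⟩ := h5
    have h7 : N2 P x y = N2 P' x y := by
      have := congrArg (fun p : (Σ _ : ℕ, Multiset (ℕ × ℕ)) => p.2) hφ
      exact this
    rw [N2, N2, h6.1, h6.2] at h7
    have h8 := (Multiset.cons_inj_right _).1 ((Multiset.cons_inj_right _).1 h7)
    have h9 : P = P' := by
      rw [← Multiset.cons_erase h4, ← Multiset.cons_erase h4', ← Multiset.cons_erase k4,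
        ← Multiset.cons_erase k4', h8]
    rw [h9]

lemma two_sum (hg : Ops g) (w t D : ℕ) (hw : t + D ≤ w) :
    W g D t ≤ (2 * (w + 10) ^ 6) * ∑ t' ∈ range (t + 2 * D + 6), W (g2 g) (D - 2) t' := by
  classical
  have h1 : W g D t ≤ _ := Finset.sum_le_sum fun P _ => two_step hg P
  rw [Finset.sum_add_distrib] at h1
  have h2 := sumA (g := g) w t D hw
  have h3 := sumB (g := g) w t D hw
  refine h1.trans ((Nat.add_le_add h2 h3).trans ?_)
  rw [← add_mul]
  apply Nat.mul_le_mul_right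
  have e1 : w + 2 ≤ w + 10 := by omega
  have e2 : (w + 2) * (w + 2) * (w + 10) ≤ (w + 10) ^ 6 := by
    calc (w + 2) * (w + 2) * (w + 10) ≤ (w + 10) * (w + 10) * (w + 10) :=
          Nat.mul_le_mul_right _ (Nat.mul_le_mul e1 e1)
      _ = (w + 10) ^ 3 := by ring
      _ ≤ (w + 10) ^ 6 := Nat.pow_le_pow_right (by omega) (by norm_num)
  have e3 : (w + 2) * (w + 2) * ((w + 2) * (w + 2)) * ((w + 10) * (w + 10)) ≤ (w + 10) ^ 6 := by
    calc (w + 2) * (w + 2) * ((w + 2) * (w + 2)) * ((w + 10) * (w + 10)) ≤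
        (w + 10) * (w + 10) * ((w + 10) * (w + 10)) * ((w + 10) * (w + 10)) :=
          Nat.mul_le_mul_right _ (Nat.mul_le_mul (Nat.mul_le_mul e1 e1) (Nat.mul_le_mul e1 e1))
      _ = (w + 10) ^ 6 := by ring
  omega

/-- The numbers. -/
lemma numbers {a w X K : ℕ} (hH : PureH) (hK : 1 ≤ K) (hX : 16 * K ^ 2 ≤ X) (hX6 : 10 ^ 6 ≤ X)
    (hw2 : 2 ≤ w) (hwX : w * X ^ 5 ≤ a ^ 2) (hwK : (w + 10) ^ 20 ≤ X ^ K) :
    1000 ≤ a ∧ ∀ s s', s + a / 16 ≤ s' → s' ≤ w →
      (w + 10) ^ 18 * (PT s).card ≤ (PT s').card := by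
  have hXa : X ≤ a := by
    have h1 : X ^ 2 ≤ a ^ 2 := by
      calc X ^ 2 ≤ X ^ 5 := Nat.pow_le_pow_right (by omega) (by norm_num)
        _ = 1 * X ^ 5 := (one_mul _).symm
        _ ≤ w * X ^ 5 := Nat.mul_le_mul_right _ (by omega)
        _ ≤ a ^ 2 := hwX
    by_contra h
    push Not at h
    have h2 : a ^ 2 < X ^ 2 := Nat.pow_lt_pow_left h (by norm_num)
    omega
  have ha : 1000 ≤ a := by
    have : (10 : ℕ) ^ 6 = 1000000 := by norm_num
    omega
  refine ⟨ha, fun s s' hs hs' => ?_⟩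
  refine hH w (a / 16) X K _ s s' hK hX ?_ (by omega) ?_ hs hs'
  · have h17 : a ≤ 17 * (a / 16) := by omega
    have h1 : a ^ 2 ≤ 289 * (a / 16) ^ 2 := by
      calc a ^ 2 ≤ (17 * (a / 16)) ^ 2 := Nat.pow_le_pow_left h17 2
        _ = 289 * (a / 16) ^ 2 := by ring
    have h2 : X * (w * X ^ 4) ≤ X * (a / 16) ^ 2 := by
      calc X * (w * X ^ 4) = w * X ^ 5 := by ring
        _ ≤ a ^ 2 := hwX
        _ ≤ 289 * (a / 16) ^ 2 := h1
        _ ≤ X * (a / 16) ^ 2 := Nat.mul_le_mul_right _ (by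
            have : (10 : ℕ) ^ 6 = 1000000 := by norm_num
            omega)
    exact Nat.le_of_mul_le_mul_left h2 (by
      have : (10 : ℕ) ^ 6 = 1000000 := by norm_num
      omega)
  · calc (w + 10) ^ 18 * (4 * w + 4) ≤ (w + 10) ^ 18 * (w + 10) ^ 2 :=
          Nat.mul_le_mul_left _ (by nlinarith)
      _ = (w + 10) ^ 20 := by ring
      _ ≤ X ^ K := hwK

open scoped Classical in
/-- **[T8a]** -/
theorem cntA (hH : PureH) : CntA := by
  intro g hg a n w M D X K hK hX hX6 hwX hwK hD2 hD16 han hMw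
  obtain ⟨ha, hQ⟩ := numbers hH hK hX hX6 (by omega) hwX hwK
  have hNT := nontyp (op2_of hg) a n w M D D le_rfl hD16 hMw (by omega) han
  set R := W (g2 g) (D - 2) (M + 1) with hR
  have hgrow : ∀ t ∈ (range (M + 1)).filter (fun t => t + a / 4 ≤ M + 2),
      (w + 10) ^ 18 * W g D t ≤ 2 * (w + 10) ^ 7 * R := by
    intro t ht
    rw [Finset.mem_filter, Finset.mem_range] at ht
    have h1 := two_sum hg w t D (by omega)
    have h2 : (w + 10) ^ 18 * ∑ t' ∈ range (t + 2 * D + 6), W (g2 g) (D - 2) t' ≤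
        (w + 10) * R := by
      rw [Finset.mul_sum]
      calc ∑ t' ∈ range (t + 2 * D + 6), (w + 10) ^ 18 * W (g2 g) (D - 2) t' ≤
          ∑ _t' ∈ range (t + 2 * D + 6), R := by
            apply Finset.sum_le_sum
            intro t' ht'
            rw [Finset.mem_range] at ht'
            exact grow (op2_g2 hg) (D - 2) (M + 1) t' (a / 16) _ w hQ (by omega) (by omega)
        _ = (t + 2 * D + 6) * R := by rw [Finset.sum_const, Finset.card_range, smul_eq_mul]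
        _ ≤ (w + 10) * R := Nat.mul_le_mul_right _ (by omega)
    calc (w + 10) ^ 18 * W g D t ≤ (w + 10) ^ 18 * ((2 * (w + 10) ^ 6) *
          ∑ t' ∈ range (t + 2 * D + 6), W (g2 g) (D - 2) t') := Nat.mul_le_mul_left _ h1
      _ = (2 * (w + 10) ^ 6) * ((w + 10) ^ 18 *
          ∑ t' ∈ range (t + 2 * D + 6), W (g2 g) (D - 2) t') := by ring
      _ ≤ (2 * (w + 10) ^ 6) * ((w + 10) * R) := Nat.mul_le_mul_left _ h2
      _ = 2 * (w + 10) ^ 7 * R := by ring
  have h3 : (w + 10) ^ 18 * ∑ t ∈ (range (M + 1)).filter (fun t => t + a / 4 ≤ M + 2),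
      W g D t ≤ 2 * (w + 10) ^ 8 * R := by
    rw [Finset.mul_sum]
    refine (Finset.sum_le_sum hgrow).trans ?_
    rw [Finset.sum_const, smul_eq_mul]
    have h4 : ((range (M + 1)).filter (fun t => t + a / 4 ≤ M + 2)).card ≤ w + 10 := by
      refine (Finset.card_filter_le _ _).trans ?_
      rw [Finset.card_range]
      omega
    calc _ ≤ (w + 10) * (2 * (w + 10) ^ 7 * R) := Nat.mul_le_mul_right _ h4
      _ = 2 * (w + 10) ^ 8 * R := by ring
  have h5 : (w + 10) ^ 18 * (4 * ∑ P ∈ (LT M D).filter (fun P => ¬ Typ a n D P), g P) ≤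
      (w + 10) ^ 18 * R := by
    calc _ = 4 * (w + 10) ^ 18 * ∑ P ∈ (LT M D).filter (fun P => ¬ Typ a n D P), g P := by ring
      _ ≤ 4 * (w + 10) ^ 18 * ((w + 10) ^ 4 *
          ∑ t ∈ (range (M + 1)).filter (fun t => t + a / 4 ≤ M + 2), W g D t) :=
          Nat.mul_le_mul_left _ hNT
      _ = 4 * (w + 10) ^ 4 * ((w + 10) ^ 18 *
          ∑ t ∈ (range (M + 1)).filter (fun t => t + a / 4 ≤ M + 2), W g D t) := by ring
      _ ≤ 4 * (w + 10) ^ 4 * (2 * (w + 10) ^ 8 * R) := Nat.mul_le_mul_left _ h3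
      _ = 8 * (w + 10) ^ 12 * R := by ring
      _ ≤ (w + 10) ^ 18 * R := by
          apply Nat.mul_le_mul_right
          calc 8 * (w + 10) ^ 12 ≤ (w + 10) ^ 6 * (w + 10) ^ 12 := by
                apply Nat.mul_le_mul_right
                calc 8 ≤ 10 ^ 6 := by norm_num
                  _ ≤ (w + 10) ^ 6 := Nat.pow_le_pow_left (by omega) 6
            _ = (w + 10) ^ 18 := by ring
  exact Nat.le_of_mul_le_mul_left h5 (by positivity)

open scoped Classical in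
/-- **[T8b]** -/
theorem cntB (hH : PureH) : CntB := by
  intro g hg a n w M D X K hK hX hX6 hwX hwK hD2 hD16 han hMw
  obtain ⟨ha, hQ⟩ := numbers hH hK hX hX6 (by omega) hwX hwK
  have hNT := nontyp (op2_g2 hg) a n w (M + 1) D (D - 2) (by omega) hD16 (by omega) (by omega) han
  set R := W (g2 g) (D - 2) (M + 1) with hR
  have h3 : (w + 10) ^ 18 * ∑ t ∈ (range (M + 1 + 1)).filter (fun t => t + a / 4 ≤ M + 1 + 2),
      W (g2 g) (D - 2) t ≤ (w + 10) * R := by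
    rw [Finset.mul_sum]
    calc _ ≤ ∑ _t ∈ (range (M + 1 + 1)).filter (fun t => t + a / 4 ≤ M + 1 + 2), R := by
          apply Finset.sum_le_sum
          intro t ht
          rw [Finset.mem_filter, Finset.mem_range] at ht
          exact grow (op2_g2 hg) (D - 2) (M + 1) t (a / 16) _ w hQ (by omega) (by omega)
      _ = ((range (M + 1 + 1)).filter (fun t => t + a / 4 ≤ M + 1 + 2)).card * R := by
          rw [Finset.sum_const, smul_eq_mul]
      _ ≤ (w + 10) * R := by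
          apply Nat.mul_le_mul_right
          refine (Finset.card_filter_le _ _).trans ?_
          rw [Finset.card_range]
          omega
  have h5 : (w + 10) ^ 18 * (2 * ∑ P ∈ (LT (M + 1) (D - 2)).filter
      (fun P => ¬ Typ a n D P), g2 g P) ≤ (w + 10) ^ 18 * R := by
    calc _ = 2 * (w + 10) ^ 18 * ∑ P ∈ (LT (M + 1) (D - 2)).filter
          (fun P => ¬ Typ a n D P), g2 g P := by ring
      _ ≤ 2 * (w + 10) ^ 18 * ((w + 10) ^ 4 *
          ∑ t ∈ (range (M + 1 + 1)).filter (fun t => t + a / 4 ≤ M + 1 + 2),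
            W (g2 g) (D - 2) t) := Nat.mul_le_mul_left _ hNT
      _ = 2 * (w + 10) ^ 4 * ((w + 10) ^ 18 *
          ∑ t ∈ (range (M + 1 + 1)).filter (fun t => t + a / 4 ≤ M + 1 + 2),
            W (g2 g) (D - 2) t) := by ring
      _ ≤ 2 * (w + 10) ^ 4 * ((w + 10) * R) := Nat.mul_le_mul_left _ h3
      _ = 2 * (w + 10) ^ 5 * R := by ring
      _ ≤ (w + 10) ^ 18 * R := by
          apply Nat.mul_le_mul_right
          calc 2 * (w + 10) ^ 5 ≤ (w + 10) ^ 13 * (w + 10) ^ 5 := by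
                apply Nat.mul_le_mul_right
                calc 2 ≤ 10 ^ 13 := by norm_num
                  _ ≤ (w + 10) ^ 13 := Nat.pow_le_pow_left (by omega) 13
            _ = (w + 10) ^ 18 := by ring
  exact Nat.le_of_mul_le_mul_left h5 (by positivity)

end Vale.Agent.P181.ST.H984
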