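import Vale.Agent.P181.ST.H984.Base

set_option autoImplicit false

/-!
# P181, ST, [T8]: the types which are not typical, and the growth in the pure part
-/

namespace Vale.Agent.P181.ST.H984

open Finset
open Vale.Agent.P181.SZ (PT)

/-- The two operations which are needed here. -/
structure Op2 (G : Multiset (ℕ × ℕ) → ℕ) : Prop where
  pure : ∀ (P Q : Multiset (ℕ × ℕ)), (∀ x ∈ Q, x.2 = 0) → G (Q + P) = G P
  fresh : ∀ (P : Multiset (ℕ × ℕ)) (i i' j : ℕ), (i', j) ∉ P →
    G ((i, j) ::ₘ P) ≤ G ((i', j) ::ₘ P)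

variable {G : Multiset (ℕ × ℕ) → ℕ}

lemma Op2.dec (h : Op2 G) (P : Multiset (ℕ × ℕ)) : G (dec P) = G P := by
  conv_rhs => rw [← pp_add_dec P]
  rw [h.pure _ _ (fun x hx => (mem_pp.1 hx).2)]

/-- The full sum. -/
noncomputable def W (G : Multiset (ℕ × ℕ) → ℕ) (J t : ℕ) : ℕ := ∑ P ∈ LT t J, G P

lemma sum_sigma_W (G : Multiset (ℕ × ℕ) → ℕ) (J : ℕ) (A : Finset ℕ) :
    ∑ p ∈ A.sigma (fun t => LT t J), G p.2 = ∑ t ∈ A, W G J t := by
  rw [Finset.sum_sigma]
  rfl

open scoped Classical in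
/-- A big letter. -/
noncomputable def xb (a : ℕ) (P : Multiset (ℕ × ℕ)) : ℕ × ℕ :=
  if h : ∃ x ∈ P, a < x.1 + x.2 + 3 then h.choose else (0, 0)

lemma xb_spec {a : ℕ} {P : Multiset (ℕ × ℕ)} (h : ∃ x ∈ P, a < x.1 + x.2 + 3) :
    xb a P ∈ P ∧ a < (xb a P).1 + (xb a P).2 + 3 := by
  rw [xb, dif_pos h]
  exact h.choose_spec

/-- The new first coordinate. -/
noncomputable def ib (a : ℕ) (P : Multiset (ℕ × ℕ)) : ℕ :=
  fr (dec (P.erase (xb a P))) (xb a P).2 2

/-- The new type. -/
noncomputable def P1 (a : ℕ) (P : Multiset (ℕ × ℕ)) : Multiset (ℕ × ℕ) :=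
  if (xb a P).2 = 0 then P.erase (xb a P) else (ib a P, (xb a P).2) ::ₘ P.erase (xb a P)

open scoped Classical in
lemma big (hG : Op2 G) (a w M D J : ℕ) (hJ : J ≤ D) (hD : 16 * D ≤ a) (hw : M + J ≤ w)
    (ha : 64 ≤ a) :
    ∑ P ∈ (LT M J).filter (fun P => ∃ x ∈ P, a < x.1 + x.2 + 3), G P ≤
      ((w + 1) * (w + 1) * (w + 3)) *
        ∑ t ∈ (range (M + 1)).filter (fun t => t + a / 4 ≤ M + 2), W G J t := by
  set S := (LT M J).filter (fun P => ∃ x ∈ P, a < x.1 + x.2 + 3) with hS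
  have hfacts : ∀ P ∈ S, (∀ x ∈ P, 2 ≤ x.1 + x.2) ∧ sf P = M ∧ ss P = J ∧ xb a P ∈ P ∧
      a < (xb a P).1 + (xb a P).2 + 3 := by
    intro P hP
    rw [hS, Finset.mem_filter, mem_LT] at hP
    obtain ⟨⟨h1, h2, h3⟩, h4⟩ := hP
    exact ⟨h1, h2, h3, xb_spec h4⟩
  have hib : ∀ P ∈ S, 2 ≤ ib a P ∧ ib a P ≤ 2 + ss (P.erase (xb a P)) := by
    intro P _
    refine ⟨le_fr _ _ _, (fr_le _ _ _).trans ?_⟩
    have := card_dec_le (P.erase (xb a P))
    omega
  have h1 : ∑ P ∈ S, G P ≤ ∑ P ∈ S, (fun p : (Σ _ : ℕ, Multiset (ℕ × ℕ)) => G p.2)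
      ⟨sf (P1 a P), P1 a P⟩ := by
    apply Finset.sum_le_sum
    intro P hP
    obtain ⟨_, _, _, hx, _⟩ := hfacts P hP
    simp only
    rw [P1]
    split_ifs with h0
    · conv_lhs => rw [← Multiset.cons_erase hx, ← Multiset.singleton_add]
      rw [hG.pure]
      intro y hy
      rw [Multiset.mem_singleton] at hy
      rw [hy, h0]
    · conv_lhs => rw [← Multiset.cons_erase hx]
      have h2 := hG.fresh (P.erase (xb a P)) (xb a P).1 (ib a P) (xb a P).2
        (notMem_of_dec (by omega) (fr_notMem _ _ _))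
      exact h2
  refine h1.trans ?_
  have h2 := code_le S (((range (M + 1)).filter (fun t => t + a / 4 ≤ M + 2)).sigma
    (fun t => LT t J)) ((range (w + 1) ×ˢ range (w + 1)) ×ˢ range (w + 3))
    (fun P => (⟨sf (P1 a P), P1 a P⟩ : Σ _ : ℕ, Multiset (ℕ × ℕ)))
    (fun P => (xb a P, ib a P)) (fun p => G p.2) ?_ ?_ ?_
  · rw [sum_sigma_W] at h2
    refine h2.trans (le_of_eq ?_)
    rw [Finset.card_product, Finset.card_product, Finset.card_range, Finset.card_range]
  · intro P hP
    obtain ⟨hl, hsf, hss, hx, hbig⟩ := hfacts P hP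
    obtain ⟨hi2, hile⟩ := hib P hP
    have e1 := sf_erase hx
    have e2 := ss_erase hx
    simp only [Finset.mem_sigma, Finset.mem_filter, Finset.mem_range]
    have hle : ∀ x ∈ P.erase (xb a P), 2 ≤ x.1 + x.2 := fun x hx' => hl x (Multiset.mem_of_mem_erase hx')
    rw [P1]
    split_ifs with h0
    · refine ⟨⟨by omega, by omega⟩, mem_LT.2 ⟨hle, rfl, by omega⟩⟩
    · rw [sf_cons]
      simp only
      refine ⟨⟨by omega, by omega⟩, mem_LT.2 ⟨?_, by rw [sf_cons], by rw [ss_cons]; simp only; omega⟩⟩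
      intro x hx'
      rcases Multiset.mem_cons.1 hx' with rfl | h
      · simp only; omega
      · exact hle x h
  · intro P hP
    obtain ⟨hl, hsf, hss, hx, hbig⟩ := hfacts P hP
    obtain ⟨hi2, hile⟩ := hib P hP
    have e1 := sf_erase hx
    have e2 := ss_erase hx
    simp only [Finset.mem_product, Finset.mem_range]
    refine ⟨⟨by omega, by omega⟩, by omega⟩
  · intro P hP P' hP' hφ hψ
    obtain ⟨_, _, _, hx, _⟩ := hfacts P hP
    obtain ⟨_, _, _, hx', _⟩ := hfacts P' hP'
    have h3 : xb a P = xb a P' := (Prod.mk.inj hψ).1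
    have h4 : ib a P = ib a P' := (Prod.mk.inj hψ).2
    have h5 : P1 a P = P1 a P' := by
      have := congrArg (fun p : (Σ _ : ℕ, Multiset (ℕ × ℕ)) => p.2) hφ
      exact this
    have h6 : P.erase (xb a P) = P'.erase (xb a P') := by
      rw [P1, P1] at h5
      by_cases h0 : (xb a P).2 = 0
      · rw [if_pos h0, if_pos (h3 ▸ h0)] at h5
        exact h5
      · rw [if_neg h0, if_neg (h3 ▸ h0), h4] at h5
        rw [← h3] at h5 ⊢
        exact (Multiset.cons_inj_right _).1 h5
    rw [← Multiset.cons_erase hx, ← Multiset.cons_erase hx', h6, h3]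

lemma sf_pred {R : Multiset (ℕ × ℕ)} (h : ∀ x ∈ R, 1 ≤ x.1) :
    sf (R.map fun x => (x.1 - 1, x.2)) + Multiset.card R = sf R := by
  induction R using Multiset.induction_on with
  | empty => simp
  | cons x R ih =>
    have h1 := ih fun y hy => h y (Multiset.mem_cons_of_mem hy)
    have h2 := h x (Multiset.mem_cons_self x R)
    rw [Multiset.map_cons, sf_cons, sf_cons, Multiset.card_cons]
    simp only
    omega

/-- The long pure letters. -/
def Rl (P : Multiset (ℕ × ℕ)) : Multiset (ℕ × ℕ) := (pp P).filter fun x => 3 ≤ x.1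

/-- The short pure letters. -/
def Rs (P : Multiset (ℕ × ℕ)) : Multiset (ℕ × ℕ) := (pp P).filter fun x => ¬ 3 ≤ x.1

/-- One unit less in every pure letter. -/
def P2 (P : Multiset (ℕ × ℕ)) : Multiset (ℕ × ℕ) := (Rl P).map (fun x => (x.1 - 1, x.2)) + dec P

lemma Rl_add_Rs (P : Multiset (ℕ × ℕ)) : Rl P + Rs P = pp P := Multiset.filter_add_not _ _

lemma mem_Rl {P : Multiset (ℕ × ℕ)} {x : ℕ × ℕ} (h : x ∈ Rl P) : x ∈ P ∧ x.2 = 0 ∧ 3 ≤ x.1 := by
  rw [Rl, Multiset.mem_filter, mem_pp] at h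
  exact ⟨h.1.1, h.1.2, h.2⟩

lemma Rs_eq {P : Multiset (ℕ × ℕ)} (hl : ∀ x ∈ P, 2 ≤ x.1 + x.2) :
    Rs P = Multiset.replicate (Multiset.card (Rs P)) (2, 0) := by
  rw [Multiset.eq_replicate]
  refine ⟨rfl, fun x hx => ?_⟩
  rw [Rs, Multiset.mem_filter, mem_pp] at hx
  have h1 := hl x hx.1.1
  have h2 := hx.1.2
  have h3 := hx.2
  ext
  · simp only; omega
  · exact h2

open scoped Classical in
lemma many (hG : Op2 G) (a w M J : ℕ) (hw : M + J ≤ w) :
    ∑ P ∈ (LT M J).filter (fun P => a / 4 ≤ Multiset.card (pp P) + 2), G P ≤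
      (w + 1) * ∑ t ∈ (range (M + 1)).filter (fun t => t + a / 4 ≤ M + 2), W G J t := by
  set S := (LT M J).filter (fun P => a / 4 ≤ Multiset.card (pp P) + 2) with hS
  have hfacts : ∀ P ∈ S, (∀ x ∈ P, 2 ≤ x.1 + x.2) ∧ sf P = M ∧ ss P = J ∧
      a / 4 ≤ Multiset.card (pp P) + 2 := by
    intro P hP
    rw [hS, Finset.mem_filter, mem_LT] at hP
    obtain ⟨⟨h1, h2, h3⟩, h4⟩ := hP
    exact ⟨h1, h2, h3, h4⟩
  have hpure : ∀ P : Multiset (ℕ × ℕ), ∀ x ∈ (Rl P).map (fun x => (x.1 - 1, x.2)), x.2 = 0 := by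
    intro P x hx
    rw [Multiset.mem_map] at hx
    obtain ⟨y, hy, rfl⟩ := hx
    exact (mem_Rl hy).2.1
  have h1 : ∑ P ∈ S, G P ≤ ∑ P ∈ S, (fun p : (Σ _ : ℕ, Multiset (ℕ × ℕ)) => G p.2)
      ⟨sf (P2 P), P2 P⟩ := by
    apply Finset.sum_le_sum
    intro P hP
    simp only
    rw [P2, hG.pure _ _ (hpure P), hG.dec]
  refine h1.trans ?_
  have h2 := code_le S (((range (M + 1)).filter (fun t => t + a / 4 ≤ M + 2)).sigma
    (fun t => LT t J)) (range (w + 1))
    (fun P => (⟨sf (P2 P), P2 P⟩ : Σ _ : ℕ, Multiset (ℕ × ℕ)))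
    (fun P => Multiset.card (Rs P)) (fun p => G p.2) ?_ ?_ ?_
  · rw [sum_sigma_W] at h2
    refine h2.trans (le_of_eq ?_)
    rw [Finset.card_range]
  · intro P hP
    obtain ⟨hl, hsf, hss, hc⟩ := hfacts P hP
    have e1 : sf ((Rl P).map fun x => (x.1 - 1, x.2)) + Multiset.card (Rl P) = sf (Rl P) :=
      sf_pred fun x hx => by have := (mem_Rl hx).2.2; omega
    have e2 : sf (Rs P) = 2 * Multiset.card (Rs P) := by
      conv_lhs => rw [Rs_eq hl]
      rw [sf, Multiset.map_replicate, Multiset.sum_replicate, smul_eq_mul, mul_comm]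
    have e3 := sf_dec_add P
    have e4 : sf (Rl P) + sf (Rs P) = sf (pp P) := by rw [← sf_add, Rl_add_Rs]
    have e5 : Multiset.card (Rl P) + Multiset.card (Rs P) = Multiset.card (pp P) := by
      rw [← Multiset.card_add, Rl_add_Rs]
    have e6 : sf (P2 P) = sf ((Rl P).map fun x => (x.1 - 1, x.2)) + sf (dec P) := by
      rw [P2, sf_add]
    simp only [Finset.mem_sigma, Finset.mem_filter, Finset.mem_range]
    refine ⟨⟨by omega, by omega⟩, mem_LT.2 ⟨?_, rfl, ?_⟩⟩
    · intro x hx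
      rw [P2, Multiset.mem_add] at hx
      rcases hx with hx | hx
      · rw [Multiset.mem_map] at hx
        obtain ⟨y, hy, rfl⟩ := hx
        have := (mem_Rl hy).2.2
        simp only
        omega
      · exact hl x (mem_dec.1 hx).1
    · rw [P2, ss_add, ss_dec, hss]
      have : ss ((Rl P).map fun x => (x.1 - 1, x.2)) = 0 := by
        rw [ss, Multiset.sum_eq_zero_iff]
        intro y hy
        rw [Multiset.mem_map] at hy
        obtain ⟨x, hx, rfl⟩ := hy
        exact hpure P x hx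
      omega
  · intro P hP
    obtain ⟨hl, hsf, hss, hc⟩ := hfacts P hP
    have e1 := card_le hl
    have e2 : Multiset.card (Rs P) ≤ Multiset.card P :=
      (Multiset.card_le_card (Multiset.filter_le _ _)).trans
        (Multiset.card_le_card (Multiset.filter_le _ _))
    rw [Finset.mem_range]
    omega
  · intro P hP P' hP' hφ hψ
    obtain ⟨hl, _, _, _⟩ := hfacts P hP
    obtain ⟨hl', _, _, _⟩ := hfacts P' hP'
    have h5 : P2 P = P2 P' := by
      have := congrArg (fun p : (Σ _ : ℕ, Multiset (ℕ × ℕ)) => p.2) hφ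
      exact this
    have h6 : dec P = dec P' := by
      have := congrArg dec h5
      rw [P2, P2, dec_add, dec_add, dec_dec, dec_dec, dec_of_pure (hpure P),
        dec_of_pure (hpure P'), zero_add, zero_add] at this
      exact this
    have h7 : (Rl P).map (fun x => (x.1 - 1, x.2)) = (Rl P').map (fun x => (x.1 - 1, x.2)) := by
      rw [P2, P2, h6] at h5
      exact add_right_cancel h5
    have h8 : ∀ P : Multiset (ℕ × ℕ),
        ((Rl P).map (fun x => (x.1 - 1, x.2))).map (fun x => (x.1 + 1, x.2)) = Rl P := by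
      intro P
      rw [Multiset.map_map]
      conv_rhs => rw [← Multiset.map_id (Rl P)]
      apply Multiset.map_congr rfl
      intro x hx
      have := (mem_Rl hx).2.2
      ext
      · simp only [Function.comp_apply, id]; omega
      · rfl
    have h9 : Rl P = Rl P' := by rw [← h8 P, ← h8 P', h7]
    have h10 : Rs P = Rs P' := by
      rw [Rs_eq hl, Rs_eq hl']
      exact congrArg (fun c => Multiset.replicate c ((2, 0) : ℕ × ℕ)) hψ
    rw [← dec_add_pp P, ← dec_add_pp P', ← Rl_add_Rs P, ← Rl_add_Rs P', h6, h9, h10]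

open scoped Classical in
/-- The types which are not typical. -/
lemma nontyp (hG : Op2 G) (a n w M D J : ℕ) (hJ : J ≤ D) (hD : 16 * D ≤ a) (hw : M + J ≤ w)
    (ha : 64 ≤ a) (han : a < n) :
    ∑ P ∈ (LT M J).filter (fun P => ¬ Typ a n D P), G P ≤
      (w + 10) ^ 4 * ∑ t ∈ (range (M + 1)).filter (fun t => t + a / 4 ≤ M + 2), W G J t := by
  set Y := ∑ t ∈ (range (M + 1)).filter (fun t => t + a / 4 ≤ M + 2), W G J t with hY
  have h1 := big hG a w M D J hJ hD hw ha
  have h2 := many hG a w M J hw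
  rw [← hY] at h1 h2
  rw [← Finset.sum_filter_add_sum_filter_not ((LT M J).filter (fun P => ¬ Typ a n D P))
    (fun P => ∃ x ∈ P, a < x.1 + x.2 + 3)]
  have h3 : ∑ P ∈ ((LT M J).filter (fun P => ¬ Typ a n D P)).filter
      (fun P => ∃ x ∈ P, a < x.1 + x.2 + 3), G P ≤
      ∑ P ∈ (LT M J).filter (fun P => ∃ x ∈ P, a < x.1 + x.2 + 3), G P := by
    apply Finset.sum_le_sum_of_subset
    intro P hP
    rw [Finset.mem_filter, Finset.mem_filter] at hP
    exact Finset.mem_filter.2 ⟨hP.1.1, hP.2⟩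
  have h4 : ∑ P ∈ ((LT M J).filter (fun P => ¬ Typ a n D P)).filter
      (fun P => ¬ ∃ x ∈ P, a < x.1 + x.2 + 3), G P ≤
      ∑ P ∈ (LT M J).filter (fun P => a / 4 ≤ Multiset.card (pp P) + 2), G P := by
    apply Finset.sum_le_sum_of_subset
    intro P hP
    rw [Finset.mem_filter, Finset.mem_filter] at hP
    obtain ⟨⟨hP1, hP2⟩, hP3⟩ := hP
    refine Finset.mem_filter.2 ⟨hP1, ?_⟩
    have h5 : ¬ 3 * Multiset.card P + D + 7 ≤ n := by
      intro h6
      apply hP2
      refine ⟨fun x hx => ?_, h6⟩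
      by_contra h7
      exact hP3 ⟨x, hx, by omega⟩
    have h6 := card_dec_add P
    have h7 := card_dec_le P
    rw [mem_LT] at hP1
    have h8 := hP1.2.2
    omega
  refine (Nat.add_le_add (h3.trans h1) (h4.trans h2)).trans ?_
  rw [← add_mul]
  apply Nat.mul_le_mul_right
  nlinarith [Nat.zero_le w, Nat.zero_le (w ^ 2), Nat.zero_le (w ^ 3), Nat.zero_le (w ^ 4)]

/-- Growth in the pure part. -/
lemma grow (hG : Op2 G) (J t t' d Q w : ℕ)
    (hQ : ∀ s s', s + d ≤ s' → s' ≤ w → Q * (PT s).card ≤ (PT s').card)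
    (htt : t' + d ≤ t) (htw : t ≤ w) : Q * W G J t' ≤ W G J t := by
  classical
  set D0 := (LT t' J).image dec with hD0
  have hD0' : ∀ R ∈ D0, (∀ x ∈ R, 2 ≤ x.1 + x.2) ∧ sf R ≤ t' ∧ ss R = J ∧ dec R = R := by
    intro R hR
    rw [hD0, Finset.mem_image] at hR
    obtain ⟨P, hP, rfl⟩ := hR
    rw [mem_LT] at hP
    refine ⟨fun x hx => hP.1 x (mem_dec.1 hx).1, ?_, ?_, dec_dec P⟩
    · have := sf_dec_add P
      omega
    · rw [ss_dec, hP.2.2]
  have h1 : W G J t' ≤ ∑ R ∈ D0, (PT (t' - sf R)).card * G R := by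
    have h2 := code_le (LT t' J) (D0.sigma (fun R => PT (t' - sf R))) ({()} : Finset Unit)
      (fun P => (⟨dec P, (pp P).map Prod.fst⟩ : Σ _ : Multiset (ℕ × ℕ), Multiset ℕ))
      (fun _ => ()) (fun p => G p.1) ?_ (fun _ _ => Finset.mem_singleton_self _) ?_
    · rw [Finset.card_singleton, one_mul, Finset.sum_sigma] at h2
      simp only [Finset.sum_const, smul_eq_mul, hG.dec] at h2
      exact h2
    · intro P hP
      rw [Finset.mem_sigma]
      refine ⟨Finset.mem_image_of_mem _ hP, ?_⟩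
      rw [mem_LT] at hP
      rw [mem_PT]
      constructor
      · have := sf_dec_add P
        change sf (pp P) = t' - sf (dec P)
        omega
      · intro x hx
        rw [Multiset.mem_map] at hx
        obtain ⟨y, hy, rfl⟩ := hx
        rw [mem_pp] at hy
        have := hP.1 y hy.1
        omega
    · intro P _ P' _ hφ _
      have h3 := (Sigma.mk.inj hφ).1
      have h4 := eq_of_heq (Sigma.mk.inj hφ).2
      have h5 : ∀ P : Multiset (ℕ × ℕ), ((pp P).map Prod.fst).map (fun i => (i, 0)) = pp P := by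
        intro P
        rw [Multiset.map_map]
        conv_rhs => rw [← Multiset.map_id (pp P)]
        apply Multiset.map_congr rfl
        intro x hx
        ext
        · rfl
        · exact (mem_pp.1 hx).2.symm
      have h6 : pp P = pp P' := by
        rw [← h5 P, ← h5 P', h4]
      rw [← dec_add_pp P, ← dec_add_pp P', h3, h6]
  have h2 : ∑ R ∈ D0, (PT (t - sf R)).card * G R ≤ W G J t := by
    have hz : ∀ k : Multiset ℕ, ∀ x ∈ k.map (fun i => ((i, 0) : ℕ × ℕ)), x.2 = 0 := by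
      intro k x hx
      rw [Multiset.mem_map] at hx
      obtain ⟨i, _, rfl⟩ := hx
      rfl
    have hsz : ∀ k : Multiset ℕ, sf (k.map (fun i => ((i, 0) : ℕ × ℕ))) = k.sum := by
      intro k
      rw [sf, Multiset.map_map]
      conv_rhs => rw [← Multiset.map_id k]
      rfl
    have hss : ∀ k : Multiset ℕ, ss (k.map (fun i => ((i, 0) : ℕ × ℕ))) = 0 := by
      intro k
      rw [ss, Multiset.sum_eq_zero_iff]
      intro y hy
      rw [Multiset.mem_map] at hy
      obtain ⟨x, hx, rfl⟩ := hy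
      exact hz k x hx
    have h3 := code_le (D0.sigma (fun R => PT (t - sf R))) (LT t J) ({()} : Finset Unit)
      (fun p => p.2.map (fun i => ((i, 0) : ℕ × ℕ)) + p.1)
      (fun _ => ()) G ?_ (fun _ _ => Finset.mem_singleton_self _) ?_
    · rw [Finset.card_singleton, one_mul, Finset.sum_sigma] at h3
      have h4 : ∀ R : Multiset (ℕ × ℕ), ∀ k : Multiset ℕ,
          G (k.map (fun i => ((i, 0) : ℕ × ℕ)) + R) = G R := fun R k => hG.pure _ _ (hz k)
      simp only [h4, Finset.sum_const, smul_eq_mul] at h3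
      exact h3
    · rintro ⟨R, k⟩ hp
      rw [Finset.mem_sigma] at hp
      obtain ⟨hR, hk⟩ := hp
      obtain ⟨r1, r2, r3, r4⟩ := hD0' R hR
      rw [mem_PT] at hk
      simp only at hk
      rw [mem_LT]
      refine ⟨?_, ?_, ?_⟩
      · intro x hx
        rw [Multiset.mem_add] at hx
        rcases hx with hx | hx
        · rw [Multiset.mem_map] at hx
          obtain ⟨i, hi, rfl⟩ := hx
          have := hk.2 i hi
          simp only
          omega
        · exact r1 x hx
      · rw [sf_add, hsz, hk.1]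
        change t - sf R + sf R = t
        omega
      · rw [ss_add, hss, r3, zero_add]
    · rintro ⟨R, k⟩ hp ⟨R', k'⟩ hp' hφ _
      rw [Finset.mem_sigma] at hp hp'
      obtain ⟨_, _, _, r4⟩ := hD0' R hp.1
      obtain ⟨_, _, _, r4'⟩ := hD0' R' hp'.1
      simp only at hφ
      have h4 : R = R' := by
        have := congrArg dec hφ
        rw [dec_add, dec_add, dec_of_pure (hz k), dec_of_pure (hz k'), zero_add, zero_add, r4,
          r4'] at this
        exact this
      subst h4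
      have h5 := add_right_cancel hφ
      have h6 : k = k' := by
        have := congrArg (fun m : Multiset (ℕ × ℕ) => m.map Prod.fst) h5
        simp only [Multiset.map_map] at this
        have e : ∀ k : Multiset ℕ, k.map (Prod.fst ∘ fun i => ((i, 0) : ℕ × ℕ)) = k := by
          intro k
          conv_rhs => rw [← Multiset.map_id k]
          rfl
        rw [e, e] at this
        exact this
      rw [h6]
  calc Q * W G J t' ≤ Q * ∑ R ∈ D0, (PT (t' - sf R)).card * G R := Nat.mul_le_mul_left _ h1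
    _ = ∑ R ∈ D0, (Q * (PT (t' - sf R)).card) * G R := by
        rw [Finset.mul_sum]
        exact Finset.sum_congr rfl fun R _ => (mul_assoc _ _ _).symm
    _ ≤ ∑ R ∈ D0, (PT (t - sf R)).card * G R := by
        apply Finset.sum_le_sum
        intro R hR
        obtain ⟨_, r2, _, _⟩ := hD0' R hR
        exact Nat.mul_le_mul_right _ (hQ _ _ (by omega) (by omega))
    _ ≤ W G J t := h2

end Vale.Agent.P181.ST.H984
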