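import Vale.Agent.P181.ST.H984.NT

set_option autoImplicit false

/-!
# P181, ST, [T8]: the step with two boxes
-/

namespace Vale.Agent.P181.ST.H984

open Finset
open Vale.Agent.P181.SZ (PT)

variable {g : Multiset (ℕ × ℕ) → ℕ}

lemma op2_of (hg : Ops g) : Op2 g := ⟨fun P Q h => hg.pure P Q h, hg.fresh⟩

lemma up_cons (x : ℕ × ℕ) (P : Multiset (ℕ × ℕ)) : up (x ::ₘ P) = (x.1 + 1, x.2) ::ₘ up P :=
  Multiset.map_cons _ _ _

lemma up_add (P Q : Multiset (ℕ × ℕ)) : up (P + Q) = up P + up Q := Multiset.map_add _ _ _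

lemma mem_up {P : Multiset (ℕ × ℕ)} {i j : ℕ} : (i + 1, j) ∈ up P ↔ (i, j) ∈ P := by
  rw [up, Multiset.mem_map]
  constructor
  · rintro ⟨x, hx, h⟩
    have h1 := (Prod.mk.inj h).1
    have h2 := (Prod.mk.inj h).2
    have h3 : x = (i, j) := by
      ext
      · simp only; omega
      · exact h2
    rwa [h3] at hx
  · intro h
    exact ⟨(i, j), h, rfl⟩

lemma up_pos {P : Multiset (ℕ × ℕ)} {x : ℕ × ℕ} (h : x ∈ up P) : 1 ≤ x.1 := by
  rw [up, Multiset.mem_map] at h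
  obtain ⟨y, _, rfl⟩ := h
  simp

lemma up_inj {P Q : Multiset (ℕ × ℕ)} (h : up P = up Q) : P = Q := by
  refine Multiset.map_injective ?_ h
  intro x y hxy
  have h1 := (Prod.mk.inj hxy).1
  have h2 := (Prod.mk.inj hxy).2
  ext
  · omega
  · exact h2

/-- The surplus function. -/
def g2 (g : Multiset (ℕ × ℕ) → ℕ) (P : Multiset (ℕ × ℕ)) : ℕ := g ((0, 2) ::ₘ up P)

lemma op2_g2 (hg : Ops g) : Op2 (g2 g) where
  pure := by
    intro P Q h
    rw [g2, g2, up_add, ← Multiset.add_cons, hg.pure]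
    intro x hx
    rw [up, Multiset.mem_map] at hx
    obtain ⟨y, hy, rfl⟩ := hx
    exact h y hy
  fresh := by
    intro P i i' j h
    rw [g2, g2, up_cons, up_cons, Multiset.cons_swap, Multiset.cons_swap (0, 2)]
    apply hg.fresh
    rw [Multiset.mem_cons]
    rintro (h1 | h1)
    · have := (Prod.mk.inj h1).1
      omega
    · exact h (mem_up.1 h1)

/-- The new first coordinates. -/
noncomputable def f1 (P : Multiset (ℕ × ℕ)) (x : ℕ × ℕ) : ℕ := fr (up (dec P)) (x.2 - 2) 3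

noncomputable def f2 (P : Multiset (ℕ × ℕ)) (x _y : ℕ × ℕ) : ℕ := fr (up (dec P)) (x.2 - 1) 3

noncomputable def f3 (P : Multiset (ℕ × ℕ)) (x y : ℕ × ℕ) : ℕ :=
  fr ((f2 P x y, x.2 - 1) ::ₘ up (dec P)) (y.2 - 1) 3

lemma card_up (P : Multiset (ℕ × ℕ)) : Multiset.card (up P) = Multiset.card P :=
  Multiset.card_map _ _

/-- Back. -/
def dn1 (x : ℕ × ℕ) : ℕ × ℕ := (x.1 - 1, x.2)

lemma mem_of_up {P : Multiset (ℕ × ℕ)} {x : ℕ × ℕ} (h : x ∈ up P) :
    dn1 x ∈ P ∧ x = ((dn1 x).1 + 1, (dn1 x).2) := by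
  rw [up, Multiset.mem_map] at h
  obtain ⟨y, hy, rfl⟩ := h
  exact ⟨by simpa [dn1] using hy, by simp [dn1]⟩

lemma up_erase {P : Multiset (ℕ × ℕ)} {x : ℕ × ℕ} (h : x ∈ up P) :
    up (P.erase (dn1 x)) = (up P).erase x := by
  obtain ⟨h1, h2⟩ := mem_of_up h
  have h3 := Multiset.cons_erase h1
  have h4 := congrArg up h3
  rw [up_cons, ← h2] at h4
  rw [← h4, Multiset.erase_cons_head]

lemma up_dec_add (P : Multiset (ℕ × ℕ)) : up (dec P) + up (pp P) = up P := by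
  rw [← up_add, dec_add_pp]

lemma up_pp_pure {P : Multiset (ℕ × ℕ)} {x : ℕ × ℕ} (h : x ∈ up (pp P)) : x.2 = 0 := by
  obtain ⟨h1, h2⟩ := mem_of_up h
  have := (mem_pp.1 h1).2
  exact this

/-- The new types. -/
noncomputable def N1 (P : Multiset (ℕ × ℕ)) (x : ℕ × ℕ) : Multiset (ℕ × ℕ) :=
  (f1 P x - 1, x.2 - 2) ::ₘ P.erase (dn1 x)

noncomputable def N2 (P : Multiset (ℕ × ℕ)) (x y : ℕ × ℕ) : Multiset (ℕ × ℕ) :=
  (f2 P x y - 1, x.2 - 1) ::ₘ (f3 P x y - 1, y.2 - 1) ::ₘ (P.erase (dn1 x)).erase (dn1 y)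

lemma g_N1 (hg : Ops g) {P : Multiset (ℕ × ℕ)} {x : ℕ × ℕ} (hx : x ∈ up (dec P)) :
    g ((0, 2) ::ₘ (f1 P x, x.2 - 2) ::ₘ (up (dec P)).erase x) = g2 g (N1 P x) := by
  have hxP : x ∈ up P := by
    rw [← up_dec_add]
    exact Multiset.mem_add.2 (Or.inl hx)
  have h3 : 3 ≤ f1 P x := le_fr _ _ _
  rw [g2, N1, up_cons, up_erase hxP, ← up_dec_add P, Multiset.erase_add_left_pos _ hx]
  simp only
  rw [show f1 P x - 1 + 1 = f1 P x by omega, add_comm ((up (dec P)).erase x) (up (pp P)),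
    ← Multiset.add_cons, ← Multiset.add_cons, hg.pure _ _ fun y hy => up_pp_pure hy]

lemma g_N2 (hg : Ops g) {P : Multiset (ℕ × ℕ)} {x y : ℕ × ℕ} (hx : x ∈ up (dec P))
    (hy : y ∈ (up (dec P)).erase x) :
    g ((0, 2) ::ₘ (f2 P x y, x.2 - 1) ::ₘ (f3 P x y, y.2 - 1) ::ₘ
      ((up (dec P)).erase x).erase y) = g2 g (N2 P x y) := by
  have hxP : x ∈ up P := by
    rw [← up_dec_add]
    exact Multiset.mem_add.2 (Or.inl hx)
  have hyP : y ∈ up (P.erase (dn1 x)) := by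
    rw [up_erase hxP, ← up_dec_add, Multiset.erase_add_left_pos _ hx]
    exact Multiset.mem_add.2 (Or.inl hy)
  have h3 : 3 ≤ f2 P x y := le_fr _ _ _
  have h4 : 3 ≤ f3 P x y := le_fr _ _ _
  rw [g2, N2, up_cons, up_cons, up_erase hyP, up_erase hxP, ← up_dec_add P,
    Multiset.erase_add_left_pos _ hx, Multiset.erase_add_left_pos _ hy]
  simp only
  rw [show f2 P x y - 1 + 1 = f2 P x y by omega, show f3 P x y - 1 + 1 = f3 P x y by omega,
    add_comm (((up (dec P)).erase x).erase y) (up (pp P)), ← Multiset.add_cons,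
    ← Multiset.add_cons, ← Multiset.add_cons, hg.pure _ _ fun y hy => up_pp_pure hy]

open scoped Classical in
/-- The `two`-step for one type. -/
lemma two_step (hg : Ops g) (P : Multiset (ℕ × ℕ)) : g P ≤
    ∑ x ∈ (up (dec P)).toFinset.filter (fun x => 2 ≤ x.2), g2 g (N1 P x) +
    ∑ p ∈ ((up (dec P)).toFinset ×ˢ (up (dec P)).toFinset).filter
      (fun p => p.2 ∈ (up (dec P)).erase p.1 ∧ 1 ≤ p.1.2 ∧ 1 ≤ p.2.2), g2 g (N2 P p.1 p.2) := by
  have h0 : g P = g (up (dec P)) := by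
    rw [← (op2_of hg).dec P]
    exact (hg.relab (dec P) (fun x => (x.1 + 1, x.2)) (by
      intro x _ y _ hxy
      have h1 := (Prod.mk.inj hxy).1
      have h2 := (Prod.mk.inj hxy).2
      ext
      · omega
      · exact h2) (fun _ _ => rfl)).symm
  rw [h0]
  have hz : ∀ (j : ℕ) (x : ℕ × ℕ), 1 ≤ x.1 → (0, j) ≠ x := by
    intro j x hx h
    rw [← h] at hx
    simp at hx
  have h1 := hg.two (up (dec P)) 0 (fun x => f1 P x) (fun x y => f2 P x y) (fun x y => f3 P x y)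
    (by
      intro x _ _
      refine ⟨fr_notMem _ _ _, ?_⟩
      rw [Multiset.mem_cons]
      rintro (h | h)
      · exact hz _ _ (le_trans (by norm_num) (le_fr (up (dec P)) (x.2 - 2) 3)) h
      · exact hz _ _ (up_pos h) rfl)
    (by
      intro x _ y _ _ _
      refine ⟨fr_notMem _ _ _, fr_notMem _ _ _, ?_⟩
      rw [Multiset.mem_cons, Multiset.mem_cons]
      rintro (h | h | h)
      · exact hz _ _ (le_trans (by norm_num) (le_fr (up (dec P)) (x.2 - 1) 3)) h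
      · exact hz _ _ (le_trans (by norm_num)
          (le_fr ((f2 P x y, x.2 - 1) ::ₘ up (dec P)) (y.2 - 1) 3)) h
      · exact hz _ _ (up_pos h) rfl)
  refine h1.trans (Nat.add_le_add ?_ ?_)
  · refine le_of_eq ?_
    refine Finset.sum_congr ?_ ?_
    · ext x; simp
    · intro x hx
      rw [Finset.mem_filter, Multiset.mem_toFinset] at hx
      exact g_N1 hg hx.1
  · refine le_of_eq ?_
    refine Finset.sum_congr ?_ ?_
    · ext x; simp
    · intro p hp
      rw [Finset.mem_filter, Finset.mem_product, Multiset.mem_toFinset] at hp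
      exact g_N2 hg hp.1.1 hp.2.1

end Vale.Agent.P181.ST.H984
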